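import Vale.Agent.Lib.P060.Main
import Vale.Agent.Lib.P060.Subset

namespace Vale.Agent.Results.P060.A00_master

open Vale.Agent.Lib.P060 Finset

/-- Four clique minor bounds. (1) An `m`-vertex graph with at most `d` non-neighbours at each vertex,
`2^29 d^4 ≤ m^3`, has a `K_⌈m/2⌉` minor. (2) The same for clique inflations with equal fibres of such
a graph `R` on `W`. (3) With no independent set of three vertices and a vertex set `U` where each
vertex has at most `d` non-neighbours inside `U`, `2^29 d^4 ≤ |U|^3`: a `K_t` minor with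
`9 t ≥ 3 |V| + ⌊|U|/2⌋`. (4) With no independent set of three vertices and at most `e` non-adjacent
pairs, `2^40 e^4 ≤ m^7`: a `K_t` minor with `36 t + 2 ≥ 13 m`. -/
theorem result :
    (∀ {V : Type} [Fintype V] [DecidableEq V] (G : SimpleGraph V) [DecidableRel G.Adj]
      (d : ℕ), (∀ v, Fintype.card V ≤ G.degree v + 1 + d) →
      2 ^ 29 * d ^ 4 ≤ Fintype.card V ^ 3 →
      HasCliqueMinor G ((Fintype.card V + 1) / 2)) ∧
    (∀ {V W : Type} [Fintype V] [DecidableEq V] [Fintype W] [DecidableEq W]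
      (G : SimpleGraph V) (R : SimpleGraph W) [DecidableRel R.Adj]
      (π : V → W) (s : ℕ), (∀ w, (univ.filter fun v => π v = w).card = s) →
      (∀ u v, u ≠ v → (π u = π v ∨ R.Adj (π u) (π v)) → G.Adj u v) →
      ∀ d : ℕ, (∀ w, Fintype.card W ≤ R.degree w + 1 + d) →
      2 ^ 29 * d ^ 4 ≤ Fintype.card W ^ 3 →
      HasCliqueMinor G ((Fintype.card V + 1) / 2)) ∧
    (∀ {V : Type} [Fintype V] [DecidableEq V] (G : SimpleGraph V) [DecidableRel G.Adj],
      NoIndepTriple G → ∀ (U : Finset V) (d : ℕ),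
      (∀ u ∈ U, (U.filter fun w => w ≠ u ∧ ¬ G.Adj u w).card ≤ d) →
      2 ^ 29 * d ^ 4 ≤ U.card ^ 3 →
      ∃ t, 3 * Fintype.card V + U.card / 2 ≤ 9 * t ∧ HasCliqueMinor G t) ∧
    (∀ {V : Type} [Fintype V] [DecidableEq V] (G : SimpleGraph V) [DecidableRel G.Adj],
      NoIndepTriple G → ∀ e : ℕ, Gᶜ.edgeFinset.card ≤ e →
      2 ^ 40 * e ^ 4 ≤ Fintype.card V ^ 7 →
      ∃ t, 13 * Fintype.card V ≤ 36 * t + 2 ∧ HasCliqueMinor G t) := by
  classical
  refine ⟨?_, ?_, ?_, ?_⟩
  · intro V _ _ G _ d hdeg h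
    exact dense_minor d hdeg h
  · intro V W _ _ _ _ G R _ π s hfib hadj d hdeg hnum
    exact blowup_minor R π s hfib hadj d hdeg hnum
  · intro V _ _ G _ hα U d hU hnum
    exact subset_bound hα U d hU hnum
  · intro V _ _ G _ hα e he hnum
    exact few_nonedges hα e he hnum

end Vale.Agent.Results.P060.A00_master
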