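import Vale.Agent.Lib.P060.Main

namespace Vale.Agent.Results.P060.A_dense

open Vale.Agent.Lib.P060

/-- Every `m`-vertex graph in which each vertex has at most `d` non-neighbours, where
`2^29 d^4 ≤ m^3`, has a `K_⌈m/2⌉` minor. -/
theorem result {V : Type*} [Fintype V] [DecidableEq V] (G : SimpleGraph V) [DecidableRel G.Adj]
    (d : ℕ) (hdeg : ∀ v, Fintype.card V ≤ G.degree v + 1 + d)
    (h : 2 ^ 29 * d ^ 4 ≤ Fintype.card V ^ 3) :
    HasCliqueMinor G ((Fintype.card V + 1) / 2) :=
  dense_minor d hdeg h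

end Vale.Agent.Results.P060.A_dense
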