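import Vale.Agent.Lib.P060.Subset

namespace Vale.Agent.Results.P060.B_blowup

open Vale.Agent.Lib.P060 Finset

/-- Let `R` be a graph on `W` in which each vertex has at most `d` non-neighbours, where
`2^29 d^4 ≤ |W|^3`. Every graph `G` on `V` with a map `π : V → W` having all fibres of one size `s`
such that two distinct vertices with equal images or with `R`-adjacent images are adjacent has a
`K_⌈|V|/2⌉` minor. -/
theorem result {V W : Type*} [Fintype V] [DecidableEq V] [Fintype W] [DecidableEq W]
    (G : SimpleGraph V) (R : SimpleGraph W) [DecidableRel R.Adj]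
    (π : V → W) (s : ℕ) (hfib : ∀ w, (univ.filter fun v => π v = w).card = s)
    (hadj : ∀ u v, u ≠ v → (π u = π v ∨ R.Adj (π u) (π v)) → G.Adj u v)
    (d : ℕ) (hdeg : ∀ w, Fintype.card W ≤ R.degree w + 1 + d)
    (hnum : 2 ^ 29 * d ^ 4 ≤ Fintype.card W ^ 3) :
    HasCliqueMinor G ((Fintype.card V + 1) / 2) := by
  classical
  exact blowup_minor R π s hfib hadj d hdeg hnum

end Vale.Agent.Results.P060.B_blowup
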