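import Vale.Agent.Lib.P060.Subset

namespace Vale.Agent.Results.P060.C_subset

open Vale.Agent.Lib.P060 Finset

/-- Let `G` have no independent set of three vertices and let `U` be a vertex set in which every
vertex has at most `d` non-neighbours inside `U`, where `2^29 d^4 ≤ |U|^3`. Then `G` has a `K_t`
minor with `9 t ≥ 3 |V| + ⌊|U|/2⌋`, that is `t ≥ |V|/3 + ⌊|U|/2⌋/9`. -/
theorem result {V : Type*} [Fintype V] [DecidableEq V] (G : SimpleGraph V) [DecidableRel G.Adj]
    (hα : NoIndepTriple G) (U : Finset V) (d : ℕ)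
    (hU : ∀ u ∈ U, (U.filter fun w => w ≠ u ∧ ¬ G.Adj u w).card ≤ d)
    (hnum : 2 ^ 29 * d ^ 4 ≤ U.card ^ 3) :
    ∃ t, 3 * Fintype.card V + U.card / 2 ≤ 9 * t ∧ HasCliqueMinor G t :=
  subset_bound hα U d hU hnum

end Vale.Agent.Results.P060.C_subset
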