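import Vale.Agent.Lib.P060.Subset

namespace Vale.Agent.Results.P060.D_few_nonedges

open Vale.Agent.Lib.P060 Finset

/-- If `G` has no independent set of three vertices and at most `e` non-adjacent pairs of vertices,
where `2^40 e^4 ≤ m^7` for `m = |V|`, then `G` has a `K_t` minor with `36 t + 2 ≥ 13 m`, so
`t ≥ 13 m / 36 - 1/18`. -/
theorem result {V : Type*} [Fintype V] [DecidableEq V] (G : SimpleGraph V) [DecidableRel G.Adj]
    (hα : NoIndepTriple G) (e : ℕ) (he : Gᶜ.edgeFinset.card ≤ e)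
    (hnum : 2 ^ 40 * e ^ 4 ≤ Fintype.card V ^ 7) :
    ∃ t, 13 * Fintype.card V ≤ 36 * t + 2 ∧ HasCliqueMinor G t :=
  few_nonedges hα e he hnum

end Vale.Agent.Results.P060.D_few_nonedges
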